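import Crest.Agent.R177.DetKlein
import Crest.Agent.R194.Hil
import Crest.Prelude.Def_GroupRingDet

/-! The regular representation of matrices over `ℤ[G]` and its trace. -/

set_option autoImplicit false
set_option maxHeartbeats 400000
set_option linter.unusedSectionVars false

namespace Crest.Agent.R177.DetAux

open Finset Crest.Agent.R194 Crest.AlgebraR.GroupRingDet
open scoped InnerProductSpace

noncomputable section

variable {G : Type*} [Group G] {n : ℕ} {H : Type*} [NormedAddCommGroup H] [InnerProductSpace ℂ H]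
  [CompleteSpace H] (b : HilbertBasis (Fin n × G) ℂ H)

/-- left translations of the index set -/
def lperm (n : ℕ) : G →* Equiv.Perm (Fin n × G) where
  toFun k := (Equiv.refl _).prodCongr (Equiv.mulLeft k)
  map_one' := by ext x <;> simp
  map_mul' k k' := by ext x <;> simp [mul_assoc]

/-- right translations of the index set -/
def rperm (n : ℕ) (k : G) : Equiv.Perm (Fin n × G) := (Equiv.refl _).prodCongr (Equiv.mulRight k)

theorem rperm_inv (k : G) : (rperm n k)⁻¹ = rperm n k⁻¹ := by
  rw [inv_eq_iff_mul_eq_one]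
  ext x <;> simp [rperm]

/-- the left regular representation -/
def Lr : MonoidAlgebra ℤ G →ₐ[ℤ] (H →L[ℂ] H) :=
  MonoidAlgebra.lift ℤ (H →L[ℂ] H) G ((permOp b).comp (lperm n))

theorem Lr_single (k : G) (c : ℤ) (j : Fin n) (g : G) :
    Lr b (MonoidAlgebra.single k c) (b (j, g)) = c • b (j, k * g) := by
  rw [Lr, MonoidAlgebra.lift_single]
  show c • (permOp b (lperm n k) (b (j, g))) = _
  rw [permOp_apply]
  rfl

theorem inner_basis [DecidableEq G] (x y : Fin n × G) :
    ⟪b x, b y⟫_ℂ = if x = y then 1 else 0 := orthonormal_iff_ite.1 b.orthonormal x y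

theorem exists_eu (i j : Fin n) : ∃ T : H →L[ℂ] H,
    ∀ x : Fin n × G, T (b x) = if x.1 = j then b (i, x.2) else 0 := by
  obtain ⟨T, hT, -⟩ := exists_synth_orth b (fun x => if x.1 = j then b (i, x.2) else 0) 1
    zero_le_one (by
      intro x y hxy
      by_cases hx : x.1 = j
      · by_cases hy : y.1 = j
        · simp only [hx, hy, if_true]
          refine b.orthonormal.2 fun h => hxy ?_
          exact Prod.ext (hx.trans hy.symm) (Prod.mk.inj h).2
        · simp [hy]
      · simp [hx]) (by
      intro x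
      by_cases hx : x.1 = j
      · simp only [hx, if_true]; exact (b.orthonormal.1 _).le
      · simp [hx])
  exact ⟨T, hT⟩

/-- matrix units -/
def eu (i j : Fin n) : H →L[ℂ] H := (exists_eu b i j).choose

theorem eu_apply (i j j' : Fin n) (g : G) :
    eu b i j (b (j', g)) = if j' = j then b (i, g) else 0 := (exists_eu b i j).choose_spec (j', g)

theorem eu_mul (i j j' l : Fin n) : eu b i j * eu b j' l = if j' = j then eu b i l else 0 := by
  refine ext_basis b fun ⟨l', g⟩ => ?_
  rw [ContinuousLinearMap.mul_apply, eu_apply]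
  by_cases h : l' = l
  · rw [if_pos h, eu_apply]
    by_cases h' : j' = j
    · rw [if_pos h', if_pos h', eu_apply, if_pos h]
    · rw [if_neg h', if_neg h']; rfl
  · rw [if_neg h, map_zero]
    by_cases h' : j' = j
    · rw [if_pos h', eu_apply, if_neg h]
    · rw [if_neg h']; rfl

theorem sum_eu : ∑ i, eu b i i = 1 := by
  refine ext_basis b fun ⟨l, g⟩ => ?_
  rw [ContinuousLinearMap.sum_apply]
  simp only [eu_apply]
  rw [sum_ite_eq]
  simp

theorem eu_comm (i j : Fin n) (a : MonoidAlgebra ℤ G) : eu b i j * Lr b a = Lr b a * eu b i j := by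
  induction a using MonoidAlgebra.induction_linear with
  | zero => simp
  | add x y hx hy => rw [map_add, mul_add, add_mul, hx, hy]
  | single k c =>
    refine ext_basis b fun ⟨l, g⟩ => ?_
    rw [ContinuousLinearMap.mul_apply, ContinuousLinearMap.mul_apply, Lr_single, map_zsmul,
      eu_apply, eu_apply]
    by_cases h : l = j
    · rw [if_pos h, if_pos h, Lr_single]
    · rw [if_neg h, if_neg h, smul_zero, map_zero]

/-- the operator of a matrix -/
def lam : Matrix (Fin n) (Fin n) (MonoidAlgebra ℤ G) →+* (H →L[ℂ] H) where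
  toFun A := ∑ i, ∑ j, eu b i j * Lr b (A i j)
  map_zero' := by simp
  map_one' := by
    rw [← sum_eu b]
    refine sum_congr rfl fun i _ => ?_
    rw [sum_eq_single i]
    · simp
    · intro j _ hj
      rw [Matrix.one_apply_ne hj.symm, map_zero, mul_zero]
    · simp
  map_add' A B := by
    simp only [Matrix.add_apply, map_add, mul_add, sum_add_distrib]
  map_mul' A B := by
    rw [sum_mul]
    refine sum_congr rfl fun i _ => ?_
    simp only [Matrix.mul_apply, map_sum, mul_sum, sum_mul, map_mul]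
    rw [sum_comm]
    have : ∀ j : Fin n, ∑ l, eu b i l * (Lr b (A i j) * Lr b (B j l)) =
        ∑ j', ∑ l, eu b i j * Lr b (A i j) * (eu b j' l * Lr b (B j' l)) := by
      intro j
      symm
      rw [sum_eq_single j]
      · refine sum_congr rfl fun l _ => ?_
        rw [mul_assoc, ← mul_assoc (Lr b (A i j)), ← eu_comm, ← mul_assoc, ← mul_assoc,
          ← mul_assoc, eu_mul, if_pos rfl]
      · intro j' _ hj
        refine sum_eq_zero fun l _ => ?_
        rw [mul_assoc, ← mul_assoc (Lr b (A i j)), ← eu_comm, ← mul_assoc, ← mul_assoc,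
          eu_mul, if_neg hj, zero_mul, zero_mul]
      · simp
    rw [sum_congr rfl fun j _ => this j, sum_comm]
    refine sum_congr rfl fun j' _ => ?_
    rw [sum_comm]

theorem inner_Lr (a : MonoidAlgebra ℤ G) (i j : Fin n) (g h : G) :
    ⟪b (i, h), Lr b a (b (j, g))⟫_ℂ = if i = j then (a.coeff (h * g⁻¹) : ℂ) else 0 := by
  classical
  induction a using MonoidAlgebra.induction_linear with
  | zero => simp
  | add x y hx hy =>
    rw [map_add, ContinuousLinearMap.add_apply, inner_add_right, hx, hy]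
    by_cases h' : i = j <;> simp [h']
  | single k c =>
    rw [Lr_single, ← Int.cast_smul_eq_zsmul ℂ, inner_smul_right, inner_basis,
      MonoidAlgebra.coeff_single, Finsupp.single_apply]
    by_cases h1 : i = j
    · by_cases h2 : k = h * g⁻¹
      · simp [h1, h2]
      · have : h ≠ k * g := fun h3 => h2 (by rw [h3]; simp)
        simp [h1, h2, this]
    · simp [h1]

theorem lam_reg (A : Matrix (Fin n) (Fin n) (MonoidAlgebra ℤ G)) :
    IsRegularRepOperator b A (lam b A) := by
  intro i j g h
  show ⟪b (i, h), (∑ i, ∑ j, eu b i j * Lr b (A i j)) (b (j, g))⟫_ℂ = _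
  simp only [ContinuousLinearMap.sum_apply, inner_sum, eu_comm, ContinuousLinearMap.mul_apply,
    eu_apply]
  rw [sum_eq_single i]
  · rw [sum_eq_single j]
    · rw [if_pos rfl, inner_Lr, if_pos rfl]
    · intro j' _ hj
      rw [if_neg hj.symm, map_zero, inner_zero_right]
    · simp
  · intro i' _ hi
    refine sum_eq_zero fun j' _ => ?_
    by_cases hj : j = j'
    · rw [if_pos hj, inner_Lr, if_neg hi.symm]
    · rw [if_neg hj, map_zero, inner_zero_right]
  · simp

/-- right translations -/
def Rr (k : G) : H →L[ℂ] H := permOp b (rperm n k)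

theorem Rr_apply (k : G) (j : Fin n) (g : G) : Rr b k (b (j, g)) = b (j, g * k) := by
  rw [Rr, permOp_apply]; rfl

theorem star_Rr (k : G) : star (Rr b k) = Rr b k⁻¹ := by
  rw [Rr, star_permOp, rperm_inv, Rr]

theorem inner_Rr (k : G) (i : Fin n) (h : G) (x : H) :
    ⟪b (i, h), Rr b k x⟫_ℂ = ⟪b (i, h * k⁻¹), x⟫_ℂ := by
  rw [← Rr_apply, ← star_Rr, ContinuousLinearMap.star_eq_adjoint,
    ContinuousLinearMap.adjoint_inner_left]

theorem lam_comm (A : Matrix (Fin n) (Fin n) (MonoidAlgebra ℤ G)) (k : G) :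
    Commute (lam b A) (Rr b k) := by
  refine ext_basis b fun ⟨j, g⟩ => vec_ext_basis b fun ⟨i, h⟩ => ?_
  rw [ContinuousLinearMap.mul_apply, ContinuousLinearMap.mul_apply, Rr_apply, inner_Rr,
    lam_reg b A, lam_reg b A, mul_inv_rev, mul_assoc]

theorem inner_shift {S : H →L[ℂ] H} (hS : ∀ k, Commute S (Rr b k)) (i j : Fin n) (h g k : G) :
    ⟪b (i, h * k⁻¹), S (b (j, g))⟫_ℂ = ⟪b (i, h), S (b (j, g * k))⟫_ℂ := by
  rw [← inner_Rr, ← Rr_apply, ← ContinuousLinearMap.mul_apply, ← (hS k).eq,
    ContinuousLinearMap.mul_apply]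

theorem inner_mul_eq (S S' : H →L[ℂ] H) (i : Fin n) :
    ⟪b (i, 1), (S * S') (b (i, 1))⟫_ℂ =
      ∑ j, ∑' g, ⟪b (i, 1), S (b (j, g))⟫_ℂ * ⟪b (j, g), S' (b (i, 1))⟫_ℂ := by
  have h := b.hasSum_inner_mul_inner (ContinuousLinearMap.adjoint S (b (i, 1))) (S' (b (i, 1)))
  simp only [ContinuousLinearMap.adjoint_inner_left] at h
  rw [ContinuousLinearMap.mul_apply, ← h.tsum_eq, h.summable.tsum_prod, tsum_fintype]

theorem trace_comm {S S' : H →L[ℂ] H} (hS : ∀ k, Commute S (Rr b k))
    (hS' : ∀ k, Commute S' (Rr b k)) :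
    ∑ i, ⟪b (i, 1), (S * S') (b (i, 1))⟫_ℂ = ∑ i, ⟪b (i, 1), (S' * S) (b (i, 1))⟫_ℂ := by
  simp only [inner_mul_eq]
  rw [sum_comm]
  refine sum_congr rfl fun j _ => sum_congr rfl fun i _ => ?_
  rw [← (Equiv.inv G).tsum_eq]
  refine tsum_congr fun g => ?_
  have h1 := inner_shift b hS i j 1 1 g⁻¹
  have h2 := inner_shift b hS' j i 1 1 g
  simp only [one_mul, inv_inv] at h1 h2
  rw [Equiv.inv_apply, ← h1, h2, mul_comm]

/-- the trace -/
def trc : Tr (H →L[ℂ] H) where
  R := Set.range (Rr b)
  star_R := by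
    rintro _ ⟨k, rfl⟩
    exact ⟨k⁻¹, (star_Rr b k).symm⟩
  τ :=
    { toFun := opTrace b
      map_add' := fun S S' => by
        simp only [opTrace, ContinuousLinearMap.add_apply, inner_add_right, Complex.add_re,
          sum_add_distrib]
      map_smul' := fun c S => by
        simp only [opTrace, RingHom.id_apply, smul_eq_mul, mul_sum]
        refine sum_congr rfl fun i _ => ?_
        rw [ContinuousLinearMap.smul_apply, ← Complex.coe_smul, inner_smul_right,
          Complex.re_ofReal_mul] }
  pos S hS := by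
    show 0 ≤ opTrace b S
    refine sum_nonneg fun i _ => ?_
    exact ((ContinuousLinearMap.nonneg_iff_isPositive S).1 hS).re_inner_nonneg_right _
  tr S S' hS hS' := by
    show opTrace b (S * S') = opTrace b (S' * S)
    have := congrArg Complex.re (trace_comm b (fun k => hS _ ⟨k, rfl⟩) (fun k => hS' _ ⟨k, rfl⟩))
    rwa [Complex.re_sum, Complex.re_sum] at this
  τ_star S := by
    show opTrace b (star S) = opTrace b S
    refine sum_congr rfl fun i _ => ?_
    rw [ContinuousLinearMap.star_eq_adjoint, ContinuousLinearMap.adjoint_inner_right,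
      ← inner_conj_symm, Complex.conj_re]

theorem trc_mem (A : Matrix (Fin n) (Fin n) (MonoidAlgebra ℤ G)) : (trc b).Mem (lam b A) := by
  rintro _ ⟨k, rfl⟩
  exact lam_comm b A k

theorem trc_lam (A : Matrix (Fin n) (Fin n) (MonoidAlgebra ℤ G)) :
    (trc b).τ (lam b A) = ∑ i, ((A i i).coeff 1 : ℝ) := by
  show opTrace b (lam b A) = _
  refine sum_congr rfl fun i _ => ?_
  rw [lam_reg b A]
  simp

theorem star_lam (A : Matrix (Fin n) (Fin n) (MonoidAlgebra ℤ G))
    (hA : ∀ i j w, (A j i).coeff w⁻¹ = (A i j).coeff w) : star (lam b A) = lam b A := by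
  refine ext_basis b fun ⟨j, g⟩ => vec_ext_basis b fun ⟨i, h⟩ => ?_
  rw [ContinuousLinearMap.star_eq_adjoint, ContinuousLinearMap.adjoint_inner_right,
    ← inner_conj_symm, lam_reg b A, lam_reg b A, ← hA i j, mul_inv_rev, inv_inv]
  simp

theorem logDet_eq (T : H →L[ℂ] H) : logDet b T = 1 / 2 * (trc b).Φ T := rfl

end

end Crest.Agent.R177.DetAux
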