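import Mathlib
import Crest.Prelude.Def_GroupRingDet
import Crest.Agent.R177.DetRep

/-!
Task R177-D: a properly infinite quotient of `ℤ[G]` gives a matrix of determinant `< 1`.

`p = 2 s + 1`, `m = (s+1) - s z`, `m' = (s+1) + s z` (`m m' = p`, `m (1+z) = 1+z`, both central), so
`X i * Y j = δ i j + m * Z i j`.  `A = !![-Z00, -Z01, X0; -Z10, -Z11, X1; -Y0, -Y1, m]` satisfies `D' A = E₁ E₂ D` with
`D = diag(1,1,m)`, `D' = diag(m,m,1)`, `E₁ = 1 + N₁` (`N₁` = last column `X0, X1, 0`), `E₂ = 1 + N₂` (`N₂` = last row `-Y0,-Y1,0`),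
`Nᵢ² = 0`; `m` is a unit over `ℚ`.  `H = lp (fun _ : Fin 3 × G => ℂ) 2` with the standard Hilbert basis; `λ` = the ring hom from matrices over
`ℤ[G]` (or `ℂ[G]`) to bounded operators (sums of permutation unitaries/partial isometries; `Crest.Agent.R194.Hil` has tools).
`𝓜` = operators commuting with all right translations (closed under `star`, inverses, `cfc` via `Commute.cfc_real`);
`τ S = ∑ i, ⟪b (i,1), S (b (i,1))⟫` is a positive continuous trace on `𝓜` (`HilbertBasis.tsum_inner_mul_inner`).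
**Klein inequality**: for positive invertible `a b ∈ 𝓜`, `re τ (log a) - re τ (log b) ≤ re τ (b⁻¹ a) - 3`.  E.g. from
`log x = ∫_{s>0} ((1+s)⁻¹ - (x+s)⁻¹)`, `x⁻¹ = ∫_{s>0} (x+s)⁻²` (`cfc_integral`) and
`A⁻¹ - B⁻¹ + B⁻¹ (A - B) B⁻¹ = (A⁻¹ - B⁻¹) A (A⁻¹ - B⁻¹) ≥ 0` for `A = a+s`, `B = b+s`.
So `Φ S = re τ (log (S⋆ S))` satisfies `Φ (u S) ≤ Φ S + re τ (u⋆ u) - 3` for invertible `u, S ∈ 𝓜`.  Split every factor of
`λ A = D'⁻¹ E₁ E₂ D` into `k` equal factors: `1 + Nᵢ/k` (cost `τ(N⋆N)/k²`, as `τ N = 0`), and `m^t = e₊ + p^t e₋`, `e± = (1 ± z)/2`,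
`τ (e±) = 1/2` per diagonal entry since `z ≠ 1`.  Total: `Φ (λ A) ≤ O(1/k) + k (p^(2/k) - 1)/2 + k (p^(-2/k) - 1) → - log p < 0`.
-/

set_option autoImplicit false
set_option maxHeartbeats 800000

namespace Crest.Agent.R177

open Crest.AlgebraR.GroupRingDet

namespace DetAux

section alg
variable {R : Type*} [Ring R]

/-- `diag (0, 0, q)` -/
def mQ (q : R) : Matrix (Fin 3) (Fin 3) R := !![0, 0, 0; 0, 0, 0; 0, 0, q]
/-- `diag (q, q, 0)` -/
def mQ' (q : R) : Matrix (Fin 3) (Fin 3) R := !![q, 0, 0; 0, q, 0; 0, 0, 0]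
/-- last column -/
def mN₁ (X : Fin 2 → R) : Matrix (Fin 3) (Fin 3) R := !![0, 0, X 0; 0, 0, X 1; 0, 0, 0]
/-- last row -/
def mN₂ (Y : Fin 2 → R) : Matrix (Fin 3) (Fin 3) R := !![0, 0, 0; 0, 0, 0; -Y 0, -Y 1, 0]
/-- the matrix of small determinant -/
def mA (X Y : Fin 2 → R) (Z : Fin 2 → Fin 2 → R) (m : R) : Matrix (Fin 3) (Fin 3) R :=
  !![-Z 0 0, -Z 0 1, X 0; -Z 1 0, -Z 1 1, X 1; -Y 0, -Y 1, m]

theorem mQ_mul {q : R} (hq : q * q = 2 • q) : mQ q * mQ q = 2 • mQ q := by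
  ext i j
  fin_cases i <;> fin_cases j <;> simp [mQ, Matrix.mul_apply, Fin.sum_univ_three, hq]

theorem mQ'_mul {q : R} (hq : q * q = 2 • q) : mQ' q * mQ' q = 2 • mQ' q := by
  ext i j
  fin_cases i <;> fin_cases j <;> simp [mQ', Matrix.mul_apply, Fin.sum_univ_three, hq]

theorem mN₁_mul (X : Fin 2 → R) : mN₁ X * mN₁ X = 0 := by
  ext i j
  fin_cases i <;> fin_cases j <;> simp [mN₁, Matrix.mul_apply, Fin.sum_univ_three]

theorem mN₂_mul (Y : Fin 2 → R) : mN₂ Y * mN₂ Y = 0 := by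
  ext i j
  fin_cases i <;> fin_cases j <;> simp [mN₂, Matrix.mul_apply, Fin.sum_univ_three]

theorem one_add_mQ (s : ℕ) (q : R) :
    1 + s • mQ q = !![1, 0, 0; 0, 1, 0; 0, 0, 1 + s • q] := by
  ext i j
  fin_cases i <;> fin_cases j <;> simp [mQ]

theorem one_add_mQ' (s : ℕ) (q : R) :
    1 + s • mQ' q = !![1 + s • q, 0, 0; 0, 1 + s • q, 0; 0, 0, 1] := by
  ext i j
  fin_cases i <;> fin_cases j <;> simp [mQ']

theorem one_add_mN₁ (X : Fin 2 → R) : 1 + mN₁ X = !![1, 0, X 0; 0, 1, X 1; 0, 0, 1] := by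
  ext i j
  fin_cases i <;> fin_cases j <;> simp [mN₁]

theorem one_add_mN₂ (Y : Fin 2 → R) : 1 + mN₂ Y = !![1, 0, 0; 0, 1, 0; -Y 0, -Y 1, 1] := by
  ext i j
  fin_cases i <;> fin_cases j <;> simp [mN₂]

theorem mA_eq (X Y : Fin 2 → R) (Z : Fin 2 → Fin 2 → R) (s : ℕ) (q : R)
    (hc : ∀ r, (1 + s • q) * r = r * (1 + s • q))
    (h : ∀ i j, X i * Y j = (if i = j then 1 else 0) + (1 + s • q) * Z i j) :
    (1 + s • mQ' q) * mA X Y Z (1 + s • q) = (1 + mN₁ X) * ((1 + mN₂ Y) * (1 + s • mQ q)) := by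
  rw [one_add_mQ, one_add_mQ', one_add_mN₁, one_add_mN₂]
  generalize 1 + s • q = m at hc h
  ext i j
  fin_cases i <;> fin_cases j <;>
    simp [mA, Matrix.mul_apply, Fin.sum_univ_three, h, hc (X _)]

theorem isUnit_one_add_nil {N : R} (h : N * N = 0) : IsUnit (1 + N) :=
  ⟨⟨1 + N, 1 - N, by rw [add_mul, mul_sub, mul_sub, h]; simp,
    by rw [sub_mul, mul_add, mul_add, h]; simp⟩, rfl⟩

theorem isUnit_one_add_smul [Algebra ℚ R] {q : R} (h : q * q = 2 • q) (s : ℕ) :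
    IsUnit (1 + s • q) := by
  have key : ∀ c d : ℚ, (1 + c • q) * (1 + d • q) = 1 + (c + d + 2 * (c * d)) • q := by
    intro c d
    rw [add_mul, mul_add, mul_add, smul_mul_smul_comm, h, ← Nat.cast_smul_eq_nsmul ℚ, smul_smul,
      add_smul, add_smul]
    simp only [one_mul, mul_one, Nat.cast_ofNat]
    rw [mul_comm (c * d) 2]
    abel
  have hs : (1 + 2 * s : ℚ) ≠ 0 := by positivity
  rw [← Nat.cast_smul_eq_nsmul ℚ]
  refine ⟨⟨1 + (s : ℚ) • q, 1 + (-s / (1 + 2 * s) : ℚ) • q, ?_, ?_⟩, rfl⟩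
  · rw [key]
    have : (s : ℚ) + -s / (1 + 2 * s) + 2 * (s * (-s / (1 + 2 * s))) = 0 := by field_simp; ring
    rw [this, zero_smul, add_zero]
  · rw [key]
    have : -s / (1 + 2 * s) + (s : ℚ) + 2 * ((-s / (1 + 2 * s)) * s) = 0 := by field_simp; ring
    rw [this, zero_smul, add_zero]

theorem exists_Z {z : R} (hz : z * z = 1) (s : ℕ) (A B : R) :
    ∃ Z, (2 * s + 1 : ℕ) • A + (1 + z) * B = (1 + s • (1 - z)) * Z := by
  refine ⟨(1 + s • (1 + z)) * A + (1 + z) * B, ?_⟩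
  have h1 : (1 - z) * (1 + z) = 0 := by
    rw [sub_mul, mul_add, mul_add, hz]; simp only [one_mul, mul_one]; abel
  have h2 : (1 + s • (1 - z)) * (1 + s • (1 + z)) = (2 * s + 1 : ℕ) • (1 : R) := by
    rw [add_mul, mul_add, mul_add, smul_mul_smul_comm, h1, smul_zero, add_smul, mul_smul]
    simp only [one_mul, mul_one, add_zero, one_smul, smul_add, smul_sub, two_smul]
    abel
  have h3 : (1 + s • (1 - z)) * (1 + z) = 1 + z := by
    rw [add_mul, smul_mul_assoc, h1, smul_zero, add_zero, one_mul]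
  rw [mul_add, ← mul_assoc, ← mul_assoc, h2, h3, smul_mul_assoc, one_mul]

end alg

theorem total' {A : Type*} [CStarAlgebra A] [PartialOrder A] [StarOrderedRing A] {t : Tr A}
    {Q Q' N₁ N₂ T : A} (hQ : t.Mem Q) (hQ' : t.Mem Q') (hN₁ : t.Mem N₁)
    (hN₂ : t.Mem N₂) (hQQ : Q * Q = 2 • Q) (hQs : star Q = Q) (hQQ' : Q' * Q' = 2 • Q')
    (hQs' : star Q' = Q') (h₁ : N₁ * N₁ = 0) (h₂ : N₂ * N₂ = 0) (hτ₁ : t.τ N₁ = 0)
    (hτ₂ : t.τ N₂ = 0) {s : ℕ} (hs : 1 ≤ s) (hτ : t.τ Q < t.τ Q')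
    (hT : (1 + s • Q') * T = (1 + N₁) * ((1 + N₂) * (1 + s • Q))) :
    t.Φ T < 0 := by
  have hproj : ∀ Q : A, Q * Q = 2 • Q →
      ((1 / 2 : ℝ) • Q) * ((1 / 2 : ℝ) • Q) = (1 / 2 : ℝ) • Q := by
    intro Q hQ
    rw [smul_mul_smul_comm, hQ, ← Nat.cast_smul_eq_nsmul ℝ, smul_smul]
    norm_num
  have hstar : ∀ Q : A, star Q = Q → star ((1 / 2 : ℝ) • Q) = (1 / 2 : ℝ) • Q := by
    intro Q hQ
    rw [star_smul, star_trivial, hQ]
  have hsm : ∀ Q : A, ((2 * s + 1 : ℝ) - 1) • (1 / 2 : ℝ) • Q = s • Q := by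
    intro Q
    rw [smul_smul, ← Nat.cast_smul_eq_nsmul ℝ]
    congr 1; ring
  have hs' : (1 : ℝ) ≤ s := by exact_mod_cast hs
  refine Tr.total (hQ.smul (1 / 2)) (hQ'.smul (1 / 2)) hN₁ hN₂ (hproj _ hQQ) (hstar _ hQs)
    (hproj _ hQQ') (hstar _ hQs') h₁ h₂ hτ₁ hτ₂ (p := 2 * s + 1) (by linarith) ?_ ?_
  · rw [map_smul, map_smul, smul_eq_mul, smul_eq_mul]; linarith
  · rw [hsm, hsm]; exact hT

end DetAux

open DetAux in

theorem exists_logDet_neg {G : Type} [Group G] (z : G) (hz1 : z ≠ 1) (hz2 : z * z = 1)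
    (hzc : ∀ g, z * g = g * z) (s : ℕ) (hs : 1 ≤ s) (X Y : Fin 2 → MonoidAlgebra ℤ G)
    (hXY : ∀ i j, ∃ A B : MonoidAlgebra ℤ G, X i * Y j =
      (if i = j then 1 else 0) + (2 * s + 1 : ℕ) • A + (1 + MonoidAlgebra.of ℤ G z) * B) :
    ∃ (A : Matrix (Fin 3) (Fin 3) (MonoidAlgebra ℤ G))
      (H : Type) (_ : NormedAddCommGroup H) (_ : InnerProductSpace ℂ H) (_ : CompleteSpace H)
      (b : HilbertBasis (Fin 3 × G) ℂ H) (T : H →L[ℂ] H),
      IsUnit (A.map (MonoidAlgebra.mapRingHom G (Int.castRingHom ℚ))) ∧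
      IsRegularRepOperator b A T ∧ logDet b T < 0 := by
  classical
  set ζ := MonoidAlgebra.of ℤ G z with hζ
  have hζ2 : ζ * ζ = 1 := by rw [hζ, ← map_mul, hz2, map_one]
  have hζc : ∀ r, ζ * r = r * ζ := by
    intro r
    induction r using MonoidAlgebra.induction_linear with
    | zero => simp
    | add x y hx hy => rw [mul_add, add_mul, hx, hy]
    | single k c => simp [hζ, MonoidAlgebra.single_mul_single, hzc]
  set q := 1 - ζ with hq
  have hqq : q * q = 2 • q := by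
    rw [hq, sub_mul, mul_sub, mul_sub, hζ2, two_smul]; simp only [one_mul, mul_one]; abel
  have hc : ∀ r, (1 + s • q) * r = r * (1 + s • q) := by
    intro r
    rw [add_mul, mul_add, smul_mul_assoc, mul_smul_comm, hq, sub_mul, mul_sub, hζc]
    simp
  have hZ : ∀ i j, ∃ Z, X i * Y j = (if i = j then 1 else 0) + (1 + s • q) * Z := by
    intro i j
    obtain ⟨A, B, h⟩ := hXY i j
    obtain ⟨Z, hZ⟩ := exists_Z hζ2 s A B
    exact ⟨Z, by rw [h, add_assoc, hZ]⟩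
  choose Z hZ using hZ
  have hA := mA_eq X Y Z s q hc hZ
  let b := Crest.Agent.R194.stdBasis (Fin 3 × G)
  refine ⟨mA X Y Z (1 + s • q), _, inferInstance, inferInstance, inferInstance, b,
    lam b (mA X Y Z (1 + s • q)), ?_, lam_reg b _, ?_⟩
  · let F := (MonoidAlgebra.mapRingHom G (Int.castRingHom ℚ)).mapMatrix (m := Fin 3)
    have h := congrArg F hA
    simp only [map_mul, map_add, map_one, map_nsmul] at h
    have u1 : IsUnit (1 + s • F (mQ' q)) :=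
      isUnit_one_add_smul (by rw [← map_mul, mQ'_mul hqq, map_nsmul]) s
    have u2 : IsUnit (1 + s • F (mQ q)) :=
      isUnit_one_add_smul (by rw [← map_mul, mQ_mul hqq, map_nsmul]) s
    have u3 : IsUnit (1 + F (mN₁ X)) := isUnit_one_add_nil (by rw [← map_mul, mN₁_mul, map_zero])
    have u4 : IsUnit (1 + F (mN₂ Y)) := isUnit_one_add_nil (by rw [← map_mul, mN₂_mul, map_zero])
    have u5 := u3.mul (u4.mul u2)
    rw [← h] at u5
    exact u1.mul_left_iff.1 u5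
  · rw [logDet_eq]
    have hzi : z⁻¹ = z := inv_eq_of_mul_eq_one_right hz2
    have hqi : ∀ w, q.coeff w⁻¹ = q.coeff w := by
      intro w
      simp only [hq, hζ, MonoidAlgebra.one_def, MonoidAlgebra.of_apply, MonoidAlgebra.coeff_sub,
        MonoidAlgebra.coeff_single, Finsupp.sub_apply, Finsupp.single_apply]
      have e1 : (1 = w⁻¹) = (1 = w) := by
        rw [eq_iff_iff, ← inv_eq_iff_eq_inv, inv_one]
      have e2 : (z = w⁻¹) = (z = w) := by
        rw [eq_iff_iff, ← inv_eq_iff_eq_inv, hzi]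
      simp only [e1, e2]
    have hq1 : q.coeff 1 = 1 := by
      simp [hq, hζ, MonoidAlgebra.one_def, hz1]
    have := total' (t := trc b) (Q := lam b (mQ q))
      (Q' := lam b (mQ' q)) (N₁ := lam b (mN₁ X)) (N₂ := lam b (mN₂ Y))
      (T := lam b (mA X Y Z (1 + s • q))) (trc_mem b _) (trc_mem b _)
      (trc_mem b _) (trc_mem b _) (by rw [← map_mul, mQ_mul hqq, map_nsmul])
      (star_lam b _ (by intro i j w; fin_cases i <;> fin_cases j <;> simp [mQ, hqi]))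
      (by rw [← map_mul, mQ'_mul hqq, map_nsmul])
      (star_lam b _ (by intro i j w; fin_cases i <;> fin_cases j <;> simp [mQ', hqi]))
      (by rw [← map_mul, mN₁_mul, map_zero]) (by rw [← map_mul, mN₂_mul, map_zero])
      (by rw [trc_lam]; simp [mN₁, Fin.sum_univ_three])
      (by rw [trc_lam]; simp [mN₂, Fin.sum_univ_three]) hs
      (by
        rw [trc_lam, trc_lam]
        simp [mQ, mQ', Fin.sum_univ_three, hq1])
      (by
        have h := congrArg (lam b) hA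
        simp only [map_mul, map_add, map_one, map_nsmul] at h
        exact h)
    linarith

end Crest.Agent.R177
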