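import Crest.Agent.R177.DesignOdd
import Crest.Agent.R177.Glob
import Crest.Agent.R177.VK

/-!
Task R177-O: odd characteristic.

## `odd_core`
`main` and `cs_of_isoP` give `τ` with `CS`.  Take `M = ZMod 2`, `κ (g,h) = [ (cmp (vert h)).2 = true ]` and the resulting `ψ`.  Let `G₀ = Grp S σ τ`;
the letter `a` acts on `G₀ × ZMod 2` by `(g,e) ↦ (g * gx a, e + ψ (g,a))`, `z : (g,e) ↦ (g,e+1)`.  `G` = the subgroup of
`(Equiv.Perm (G₀ × ZMod 2))ᵐᵒᵖ` generated by the letters and `z` (finitely generated).  Then `ỹ_{vert h} x̃_{col h} = z^κ ỹ_{vert (τ h)}`.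
`X i = ỹ_{sp (i,true)}⁻¹ ∑_{cmp u = (i,true)} ỹ_u`, `Y j = (∑_{cmp v = (j,false)} ỹ_v⁻¹) ỹ_{sp (j,false)}`; apply `sum_com` in the quotient of `ℤ[G]` by the
additive subgroup (two-sided ideal) `{p • A + (1+z) B}` to `f u v = ỹ_u ỹ_v⁻¹`.

## S0275, S0276
(put into `Crest/Agent/S0275.lean`, `S0276.lean`).  S0276: `odd_core 3` and `exists_logDet_neg` (`Det.lean`, `s = 1`).
S0275: never unfold `Nat.choose 1200 600` (generalize it to `m` with `3 ≤ m`; `p ∣ (m!)²+1` forces `p > m`); `K = GaloisField p 4`; map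
`X, Y` to `K[G]`, `f = (1 - z)/2`, `a = f X₀ + (1-f)`, `b = f Y₀ + (1-f)`; `a b = 1`; if `b a = 1` then `f Y₀ X₀ = f`, so
`f Y₁ = f Y₀ X₀ Y₁ = 0`, `f = f X₁ Y₁ = 0`, contradicting `z ≠ 1`.
-/

set_option autoImplicit false

namespace Crest.Agent.R177

open Finset in
open Classical in
theorem odd_alg {Hf V P G : Type} [Fintype Hf] [Fintype V] [Fintype P] [Group G] (p : ℕ)
    (S : HS Hf V P) {σ : P → P} {cmp : V → Fin 2 × Bool} {τ : Hf → Hf} (hτ : IsMatch S σ cmp τ)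
    (sp : Fin 2 × Bool → V) (hsp : ∀ i, cmp (sp i) = i)
    (hc : ∀ i j u v, cmp u = (i, true) → cmp v = (j, false) →
        ((cols S u ∩ cols S v).card : ZMod p) =
          if i = j ∧ u = sp (i, true) ∧ v = sp (j, false) then 0 else 1)
    (z : G) (hz : ∀ g, z * g = g * z) (y : V → G)
    (hy : ∀ h k, (cmp (S.vert h)).2 = true → (cmp (S.vert k)).2 = false → S.col h = S.col k →
      y (S.vert (τ h)) * (y (S.vert (τ k)))⁻¹ = z * (y (S.vert h) * (y (S.vert k))⁻¹)) :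
    ∃ X Y : Fin 2 → MonoidAlgebra ℤ G, ∀ i j, ∃ A B : MonoidAlgebra ℤ G, X i * Y j =
        (if i = j then 1 else 0) + p • A + (1 + MonoidAlgebra.of ℤ G z) * B := by
  set o := MonoidAlgebra.of ℤ G with ho
  have hzc : ∀ c : G, o c * (1 + o z) = (1 + o z) * o c := fun c => by
    rw [mul_add, add_mul, mul_one, one_mul, ← map_mul, ← map_mul, hz]
  let N : AddSubgroup (MonoidAlgebra ℤ G) :=
    { carrier := {x | ∃ A B, x = p • A + (1 + o z) * B}
      zero_mem' := ⟨0, 0, by simp⟩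
      add_mem' := by
        rintro _ _ ⟨A, B, rfl⟩ ⟨A', B', rfl⟩
        exact ⟨A + A', B + B', by rw [smul_add, mul_add]; abel⟩
      neg_mem' := by
        rintro _ ⟨A, B, rfl⟩
        exact ⟨-A, -B, by rw [smul_neg, mul_neg]; abel⟩ }
  let π := QuotientAddGroup.mk' N
  have hπ : ∀ x, π x = 0 ↔ x ∈ N := fun x => QuotientAddGroup.eq_zero_iff x
  have hp : ∀ (n m : ℕ) (x : MonoidAlgebra ℤ G), (n : ZMod p) = m → n • π x = m • π x :=
    fun n m x h => by
      have h0 : p • π x = 0 := by rw [← map_nsmul, hπ]; exact ⟨x, 0, by simp⟩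
      rw [nsmul_eq_mod_nsmul n h0, nsmul_eq_mod_nsmul m h0, (ZMod.natCast_eq_natCast_iff' _ _ _).1 h]
  refine ⟨fun i => o (y (sp (i, true)))⁻¹ * ∑ u ∈ univ.filter (fun u => cmp u = (i, true)), o (y u),
    fun j => (∑ v ∈ univ.filter (fun v => cmp v = (j, false)), o (y v)⁻¹) * o (y (sp (j, false))),
    fun i j => ?_⟩
  have h1 := sum_com S hτ (i, true) (j, false) (fun u v => π (o (y u * (y v)⁻¹)))
    fun h k a b c => by
      rw [hy h k (by rw [a]) (by rw [b]) c, eq_neg_iff_add_eq_zero, ← map_add, hπ]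
      exact ⟨0, o (y (S.vert h) * (y (S.vert k))⁻¹), by rw [map_mul o z]; simp [add_mul, add_comm]⟩
  have h2 : π ((∑ u ∈ univ.filter (fun u => cmp u = (i, true)), o (y u)) *
      (∑ v ∈ univ.filter (fun v => cmp v = (j, false)), o (y v)⁻¹) -
      if i = j then o (y (sp (i, true)) * (y (sp (j, false)))⁻¹) else 0) = 0 := by
    have h3 : (if i = j then o (y (sp (i, true)) * (y (sp (j, false)))⁻¹) else 0) =
        ∑ u ∈ univ.filter (fun u => cmp u = (i, true)),
          ∑ v ∈ univ.filter (fun v => cmp v = (j, false)),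
            if i = j ∧ u = sp (i, true) ∧ v = sp (j, false) then o (y u * (y v)⁻¹) else 0 := by
      by_cases hij : i = j
      · simp [hij, ite_and, hsp]
      · simp [hij]
    rw [← h1, h3, sum_mul_sum, ← sum_sub_distrib, map_sum]
    refine sum_congr (by congr) fun u hu => ?_
    rw [← sum_sub_distrib, map_sum]
    refine sum_congr (by congr) fun v hv => ?_
    have h4 := hc i j u v (by simpa using hu) (by simpa using hv)
    rw [← map_mul]
    split_ifs at h4 ⊢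
    · rw [hp _ 0 _ (by simpa using h4)]; simp
    · rw [hp _ 1 _ (by simpa using h4)]; simp
  obtain ⟨A, B, h5⟩ := (hπ _).1 h2
  refine ⟨o (y (sp (i, true)))⁻¹ * A * o (y (sp (j, false))),
    o (y (sp (i, true)))⁻¹ * B * o (y (sp (j, false))), ?_⟩
  rw [mul_assoc, ← mul_assoc (∑ u ∈ _, _), sub_eq_iff_eq_add'.1 h5, add_mul, add_mul, mul_add,
    mul_add, add_assoc, smul_mul_assoc, mul_smul_comm, ← mul_assoc _ A, ← mul_assoc _ (_ * B),
    ← mul_assoc _ _ B, hzc, mul_assoc _ _ B, mul_assoc (1 + o z)]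
  congr 1
  split_ifs
  · rw [← map_mul, ← map_mul]; simp
  · simp

theorem odd_core (p : ℕ) (hp : p.Prime) (h3 : 3 ≤ p) :
    ∃ (G : Type) (_ : Group G) (z : G) (X Y : Fin 2 → MonoidAlgebra ℤ G),
      Group.FG G ∧ z ≠ 1 ∧ z * z = 1 ∧ (∀ g, z * g = g * z) ∧
      ∀ i j, ∃ A B : MonoidAlgebra ℤ G, X i * Y j =
        (if i = j then 1 else 0) + p • A + (1 + MonoidAlgebra.of ℤ G z) * B := by
  classical
  obtain ⟨P, _, _, σ, K, hK⟩ := design_odd p hp h3
  obtain ⟨g₀, hg₀⟩ := main K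
  obtain ⟨Hf, V, _, _, _, S, cmp, n₀, sp, h1, h2, h4, hsp, hc⟩ := hK g₀
  obtain ⟨τ, C, hτ, hI⟩ := hg₀ g₀ le_rfl S cmp n₀ h1 h2 h4
  obtain ⟨ψ, ψ1, ψ2⟩ := cs_of_isoP S K.σσ cmp τ hτ C hI (ZMod 2)
    (fun x => if (cmp (S.vert x.2)).2 = true then 1 else 0) fun g h => by
      simp only [hτ.cmp, ZMod.neg_eq_self_mod_two]
  have inv : ∀ a (x : Grp S σ τ × ZMod 2), (x.1 * gx S σ τ a * gx S σ τ (linv σ a),
      x.2 + ψ (x.1, a) + ψ (x.1 * gx S σ τ a, linv σ a)) = x := fun a x => by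
    rw [ψ1, gx_linv, mul_inv_cancel_right, add_neg_cancel_right]
  let π : Ltr V P → Equiv.Perm (Grp S σ τ × ZMod 2) := fun a =>
    ⟨fun x => (x.1 * gx S σ τ a, x.2 + ψ (x.1, a)),
      fun x => (x.1 * gx S σ τ (linv σ a), x.2 + ψ (x.1, linv σ a)), inv a,
      fun x => by simpa only [linv_linv K.σσ] using inv (linv σ a) x⟩
  let z : Equiv.Perm (Grp S σ τ × ZMod 2) := Equiv.prodCongr (Equiv.refl _) (Equiv.addRight 1)
  have zz : z * z = 1 := Equiv.ext fun x => Prod.ext rfl (by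
    show x.2 + 1 + 1 = x.2
    rw [add_assoc, CharTwo.add_self_eq_zero, add_zero])
  have zπ : ∀ a, Commute z (π a) := fun a => Equiv.ext fun x => Prod.ext rfl (add_right_comm _ _ _)
  have rel : ∀ h, π (Sum.inl (S.col h)) * π (Sum.inr (S.vert h, true)) =
      (if (cmp (S.vert h)).2 = true then z else 1) * π (Sum.inr (S.vert (τ h), true)) := fun h =>
    Equiv.ext fun x => by
      have a := ψ2 x.1 h
      have b : x.1 * gx S σ τ (Sum.inr (S.vert h, true)) * gx S σ τ (Sum.inl (S.col h)) =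
          x.1 * gx S σ τ (Sum.inr (S.vert (τ h), true)) := by rw [mul_assoc, gx_rel]
      rw [sub_eq_iff_eq_add'] at a
      split_ifs at a ⊢
      · exact Prod.ext b ((add_assoc _ _ _).trans ((congrArg _ a).trans (add_assoc _ _ _).symm))
      · exact Prod.ext b ((add_assoc _ _ _).trans (congrArg _ (a.trans (add_zero _))))
  let y : V → Equiv.Perm (Grp S σ τ × ZMod 2) := fun u => (π (Sum.inr (u, true)))⁻¹
  let H := Subgroup.closure (insert z (Set.range y))
  have hz : ∀ g ∈ H, Commute z g := fun g hg => by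
    have : H ≤ Subgroup.centralizer {z} := (Subgroup.closure_le _).2 (by
      rintro _ (rfl | ⟨u, rfl⟩) _ rfl
      exacts [rfl, (zπ _).inv_right])
    exact this hg z rfl
  obtain ⟨X, Y, hXY⟩ := odd_alg (G := H) p S hτ sp hsp hc
    ⟨z, Subgroup.subset_closure (Set.mem_insert _ _)⟩ (fun g => Subtype.ext (hz g.1 g.2))
    (fun u => ⟨y u, Subgroup.subset_closure (Set.mem_insert_of_mem _ ⟨u, rfl⟩)⟩)
    fun h k a b c => Subtype.ext (by
      have r1 := rel h
      have r2 := rel k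
      rw [if_pos a] at r1
      rw [if_neg (by simp [b]), one_mul, ← c] at r2
      show (π _)⁻¹ * (π _)⁻¹⁻¹ = z * ((π _)⁻¹ * (π _)⁻¹⁻¹)
      rw [inv_inv, inv_inv, ← r2, ← inv_mul_eq_iff_eq_mul.2 r1, mul_inv_rev, mul_inv_rev, inv_inv,
        ← ((zπ _).inv_right.mul_right (zπ _).inv_right).eq]
      group)
  refine ⟨H, inferInstance, ⟨z, Subgroup.subset_closure (Set.mem_insert _ _)⟩, X, Y,
    Group.closure_finite_fg _, fun e => ?_, Subtype.ext zz,
    fun g => Subtype.ext (hz g.1 g.2), hXY⟩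
  have := congrArg (fun w : H => (w.1 (1, 0)).2) e
  exact one_ne_zero ((zero_add (1 : ZMod 2)).symm.trans this)

end Crest.Agent.R177
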