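import Crest.Agent.R177.Defs

/-!
Task R177-TF: triangular presentation, torsion-freeness, residual finiteness; afterwards the final files
`Crest/Agent/S0267.lean`, `S0274.lean`, `S0303.lean` (from `two_core`, `cs_of_isoP`, `chainIso_of_isoP`, `gx_closure`,
`gx_linv`, `linv_linv`, `TriPres.hasFiniteClassifyingComplex`, `hyperbolic_of_chainIso`; `Grp` is finitely presented because `rels` is
finite; zero divisors: `(1 - b a) b = 0`).

## `exists_triPres`
Choose `P₊ ⊆ P` containing exactly one of `c, σ c`; generators `P₊ ⊕ V`, triangles `{h // col h ∈ P₊}`, `a = y_{vert h}`, `b = x_{col h}`,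
`c = y_{vert (τ h)}`; `univ` from `grp_lift`, `cs` from `CS` (extend `κ` antisymmetrically).

## `TriPres.torsionFree`
Let `t` have order `k ≥ 2`; cochains with values in `ℤ`: `C⁰ = G → ℤ`, `C¹ = G × S → ℤ`, `C² = G × T → ℤ`, `t` acts by left translation, `N = ∑_{i<k} tⁱ`.
For a free action of the cyclic group: `t f = f → ∃ f', f = N f'` and `N f = 0 → ∃ f', f = t f' - f'` (orbit representatives).
`δ¹ ψ = 0 → ψ = δ⁰ b` (use `univ` with `(Equiv.Perm (G × ℤ))ᵐᵒᵖ`), `δ⁰ b = 0 → b` constant (`gen`), `δ¹` onto (`cs`).  Chase: `1 = N a₀`,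
`δ a₀ = (t-1) a₁`, `δ a₁ = N a₂`, `a₂ = δ b₁`, `a₁ - N b₁ = δ b₀`, `a₀ - (t-1) b₀ = ` constant `c`, so `1 = k c`.

## `not_residuallyFinite`
If `G` is residually finite pick a finite quotient injective on the support of `b a - 1`; `𝔽₂[G/N]` is finite, so `a b = 1` gives `b a = 1` there.
-/

set_option autoImplicit false

namespace Crest.Agent.R177

theorem exists_triPres {Hf V P X : Type} [Fintype Hf] [Fintype V] [Fintype P] (S : HS Hf V P)
    {σ : P → P} (hσ : ∀ c, σ (σ c) = c) (hne : ∀ c, σ c ≠ c) (cmp : V → X) (τ : Hf → Hf)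
    (hτ : IsMatch S σ cmp τ) (hcs : CS S σ τ) :
    ∃ (S' T : Type) (_ : Finite S') (_ : Finite T), Nonempty (TriPres (Grp S σ τ) S' T) := by
  classical
  let e := Fintype.equivFin P
  let pos : P → Prop := fun c => e c < e (σ c)
  have h1 : ∀ c, ¬ pos c → pos (σ c) := by
    intro c hc
    show e (σ c) < e (σ (σ c))
    rw [hσ]
    exact lt_of_le_of_ne (not_lt.1 hc) fun h => hne c (e.injective h)
  have h2 : ∀ c, pos c → ¬ pos (σ c) := by
    intro c hc hc'
    have hc'' : e (σ c) < e (σ (σ c)) := hc'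
    rw [hσ] at hc''
    exact lt_asymm hc hc''
  have h3 : ∀ h, ¬ pos (S.col h) → pos (S.col (τ h)) := fun h hh => by
    rw [hτ.col]; exact h1 _ hh
  refine ⟨{c // pos c} ⊕ V, {h // pos (S.col h)}, inferInstance, inferInstance, ⟨{
    x := Sum.elim (fun c => gx S σ τ (Sum.inl c.1)) (fun u => gx S σ τ (Sum.inr (u, true)))
    a := fun h => Sum.inr (S.vert h.1)
    b := fun h => Sum.inl ⟨S.col h.1, h.2⟩
    c := fun h => Sum.inr (S.vert (τ h.1))
    rel := fun h => gx_rel S σ τ h.1
    gen := ?_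
    univ := ?_
    cs := ?_ }⟩⟩
  · rw [eq_top_iff, ← gx_closure S σ τ, Subgroup.closure_le]
    rintro _ ⟨c | ⟨u, _ | _⟩, rfl⟩
    · by_cases hc : pos c
      · exact Subgroup.subset_closure ⟨Sum.inl ⟨c, hc⟩, rfl⟩
      · have : gx S σ τ (Sum.inl c) = (gx S σ τ (Sum.inl (σ c)))⁻¹ :=
          eq_inv_of_mul_eq_one_left (gx_x S σ τ c)
        rw [this]
        exact Subgroup.inv_mem _ (Subgroup.subset_closure ⟨Sum.inl ⟨σ c, h1 c hc⟩, rfl⟩)
    · exact Subgroup.inv_mem _ (Subgroup.subset_closure ⟨Sum.inr u, rfl⟩)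
    · exact Subgroup.subset_closure ⟨Sum.inr u, rfl⟩
  · intro H _ f hf
    obtain ⟨F, hF1, hF2⟩ := grp_lift S σ τ
      (fun c => if h : pos c then f (Sum.inl ⟨c, h⟩) else (f (Sum.inl ⟨σ c, h1 c h⟩))⁻¹)
      (fun u => f (Sum.inr u)) (by
        intro c
        by_cases hc : pos c
        · rw [dif_pos hc, dif_neg (h2 c hc)]
          simp only [hσ, mul_inv_cancel]
        · rw [dif_neg hc, dif_pos (h1 c hc), inv_mul_cancel]) (by
        intro h
        by_cases hc : pos (S.col h)
        · rw [dif_pos hc]; exact hf ⟨h, hc⟩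
        · rw [dif_neg hc]
          have := hf ⟨τ h, h3 h hc⟩
          simp only [hτ.invol, hτ.col] at this
          rw [← this, mul_inv_cancel_right])
    refine ⟨F, ?_⟩
    rintro (⟨c, hc⟩ | u)
    · simp only [Sum.elim_inl, hF1, dif_pos hc]
    · simp only [Sum.elim_inr, hF2]
  · intro M _ κ
    obtain ⟨ψ, -, hψ⟩ := hcs M (fun y => if h : pos (S.col y.2) then κ (y.1, ⟨y.2, h⟩)
      else - κ (y.1, ⟨τ y.2, h3 _ h⟩)) (by
        intro g h
        by_cases hc : pos (S.col h)
        · have hc' : ¬ pos (S.col (τ h)) := by rw [hτ.col]; exact h2 _ hc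
          simp only [dif_pos hc, dif_neg hc', hτ.invol]
        · simp only [dif_neg hc, dif_pos (h3 h hc), neg_neg])
    refine ⟨fun y => Sum.elim (fun c => ψ (y.1, Sum.inl c.1)) (fun u => ψ (y.1, Sum.inr (u, true)))
      y.2, fun g t => ?_⟩
    have := hψ g t.1
    simp only [dif_pos t.2] at this
    exact this

namespace TF

theorem exists_phase {G : Type} [Group G] (t : G) (ht : IsOfFinOrder t) :
    ∃ (n : G → ℕ) (r : G → G), (∀ g, n g < orderOf t) ∧ (∀ g, t ^ n g * r g = g) ∧
      ∀ g, r (t * g) = r g := by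
  classical
  let r : G → G := fun g => (Quotient.mk (QuotientGroup.rightRel (Subgroup.zpowers t)) g).out
  have h1 : ∀ g, ∃ n < orderOf t, t ^ n * r g = g := by
    intro g
    have h2 : (QuotientGroup.rightRel (Subgroup.zpowers t)) (r g) g := Quotient.mk_out g
    rw [QuotientGroup.rightRel_apply, ht.mem_zpowers_iff_mem_range_orderOf] at h2
    obtain ⟨n, hn, h3⟩ := Finset.mem_image.1 h2
    exact ⟨n, Finset.mem_range.1 hn, by rw [h3]; simp⟩
  choose n hn hn' using h1
  refine ⟨n, r, hn, hn', fun g => ?_⟩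
  have : Quotient.mk (QuotientGroup.rightRel (Subgroup.zpowers t)) (t * g) =
      Quotient.mk (QuotientGroup.rightRel (Subgroup.zpowers t)) g := by
    apply Quotient.sound
    show (QuotientGroup.rightRel (Subgroup.zpowers t)) (t * g) g
    rw [QuotientGroup.rightRel_apply]
    simp
  simp only [r, this]

theorem norm_shift {G A : Type} [Group G] [AddCommGroup A] (t : G) (f : G → A) (g : G) :
    ∑ i ∈ Finset.range (orderOf t), (f (t * (t ^ i * g)) - f (t ^ i * g)) = 0 := by
  have := Finset.sum_range_sub (fun i => f (t ^ i * g)) (orderOf t)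
  simp only [pow_orderOf_eq_one, pow_zero, sub_self, pow_succ', mul_assoc] at this
  exact this

theorem exists_norm {G A : Type} [Group G] [AddCommGroup A] (t : G) (ht : IsOfFinOrder t)
    (f : G → A) (hf : ∀ g, f (t * g) = f g) :
    ∃ f' : G → A, ∀ g, f g = ∑ i ∈ Finset.range (orderOf t), f' (t ^ i * g) := by
  classical
  obtain ⟨n, r, hn, hnr, hr⟩ := exists_phase t ht
  have hr' : ∀ i g, r (t ^ i * g) = r g := by
    intro i g
    induction i with
    | zero => simp
    | succ i ih => rw [pow_succ', mul_assoc, hr, ih]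
  have hf' : ∀ i g, f (t ^ i * g) = f g := by
    intro i g
    induction i with
    | zero => simp
    | succ i ih => rw [pow_succ', mul_assoc, hf, ih]
  refine ⟨fun g => if g = r g then f g else 0, fun g => ?_⟩
  have hk := ht.orderOf_pos
  have h0 : t ^ ((orderOf t - n g) % orderOf t) * g = r g := by
    rw [pow_mod_orderOf]
    conv_lhs => rw [← hnr g, ← mul_assoc, hnr g, ← pow_add, Nat.sub_add_cancel (hn g).le,
      pow_orderOf_eq_one, one_mul]
  rw [Finset.sum_eq_single ((orderOf t - n g) % orderOf t)]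
  · beta_reduce
    rw [hr', if_pos h0, hf']
  · intro i hi hne
    beta_reduce
    rw [hr', if_neg]
    intro h
    rw [← h0] at h
    exact hne (pow_injOn_Iio_orderOf (Finset.mem_range.1 hi) (Nat.mod_lt _ hk)
      (mul_right_cancel h))
  · intro h; exact (h (Finset.mem_range.2 (Nat.mod_lt _ hk))).elim

theorem exists_diff {G A : Type} [Group G] [AddCommGroup A] (t : G) (ht : IsOfFinOrder t)
    (f : G → A) (hf : ∀ g, ∑ i ∈ Finset.range (orderOf t), f (t ^ i * g) = 0) :
    ∃ f' : G → A, ∀ g, f g = f' (t * g) - f' g := by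
  obtain ⟨n, r, hn, hnr, hr⟩ := exists_phase t ht
  refine ⟨fun g => ∑ j ∈ Finset.range (n g), f (t ^ j * r g), fun g => ?_⟩
  have h1 : t ^ n (t * g) = t ^ (n g + 1) := by
    apply mul_right_cancel (b := r g)
    rw [pow_succ', mul_assoc, hnr, ← hr g, hnr]
  simp only [hr]
  rcases (Nat.succ_le_of_lt (hn g)).lt_or_eq with h | h
  · rw [pow_injOn_Iio_orderOf (hn (t * g)) h h1, Finset.sum_range_succ, hnr]
    simp
  · have h' : n g + 1 = orderOf t := h
    rw [h', pow_orderOf_eq_one, ← pow_zero t] at h1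
    rw [pow_injOn_Iio_orderOf (hn (t * g)) ht.orderOf_pos h1]
    have := hf (r g)
    rw [← h', Finset.sum_range_succ, hnr] at this
    simp only [Finset.range_zero, Finset.sum_empty, zero_sub]
    exact eq_neg_of_add_eq_zero_right this

variable {G : Type} [Group G] {S T : Type} (Q : TriPres G S T)

/-- coboundary of a `0`-cochain -/
def d0 (b : G → ℤ) : G → S → ℤ := fun g s => b (g * Q.x s) - b g

/-- coboundary of a `1`-cochain -/
def d1 (ψ : G → S → ℤ) : G → T → ℤ :=
  fun g t => ψ g (Q.a t) + ψ (g * Q.x (Q.a t)) (Q.b t) - ψ g (Q.c t)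

theorem const_of_d0 {b : G → ℤ} (h : ∀ g s, d0 Q b g s = 0) (g : G) : b g = b 1 := by
  have key : ∀ g ∈ Subgroup.closure (Set.range Q.x), ∀ h, b (h * g) = b h := by
    intro g hg
    induction hg using Subgroup.closure_induction with
    | mem y hy => obtain ⟨s, rfl⟩ := hy; intro k; exact sub_eq_zero.1 (h k s)
    | one => simp
    | mul y z _ _ ihy ihz => intro k; rw [← mul_assoc, ihz, ihy]
    | inv y _ ih => intro k; rw [← ih (k * y⁻¹)]; simp
  simpa using key g (by rw [Q.gen]; trivial) 1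

theorem exact_of_d1 {ψ : G → S → ℤ} (h : ∀ g t, d1 Q ψ g t = 0) :
    ∃ b : G → ℤ, ∀ g s, ψ g s = d0 Q b g s := by
  let p : S → Equiv.Perm (G × ℤ) := fun s =>
    { toFun := fun y => (y.1 * Q.x s, y.2 + ψ y.1 s)
      invFun := fun y => (y.1 * (Q.x s)⁻¹, y.2 - ψ (y.1 * (Q.x s)⁻¹) s)
      left_inv := fun y => by simp
      right_inv := fun y => by simp }
  obtain ⟨F, hF⟩ := Q.univ (Equiv.Perm (G × ℤ))ᵐᵒᵖ (fun s => MulOpposite.op (p s)) (by
    intro t
    rw [← MulOpposite.op_mul]
    congr 1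
    ext y
    · simp [p, mul_assoc, Q.rel]
    · have := h y.1 t
      simp only [d1] at this
      simp only [p, Equiv.Perm.mul_apply, Equiv.coe_fn_mk]
      linarith)
  have key : ∀ g ∈ Subgroup.closure (Set.range Q.x), ∀ y, ((F g).unop y).1 = y.1 * g := by
    intro g hg
    induction hg using Subgroup.closure_induction with
    | mem y hy => obtain ⟨s, rfl⟩ := hy; intro k; rw [hF]; rfl
    | one => simp
    | mul y z _ _ ihy ihz =>
      intro k; rw [map_mul, MulOpposite.unop_mul, Equiv.Perm.mul_apply, ihz, ihy, mul_assoc]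
    | inv y _ ih =>
      intro k
      have := ih ((F y⁻¹).unop k)
      rw [← Equiv.Perm.mul_apply, ← MulOpposite.unop_mul, ← map_mul, inv_mul_cancel, map_one]
        at this
      simp only [MulOpposite.unop_one, Equiv.Perm.coe_one, id_eq] at this
      rw [this]; simp
  refine ⟨fun g => ((F g).unop (1, 0)).2, fun g s => ?_⟩
  have h1 := key g (by rw [Q.gen]; trivial) (1, 0)
  simp only [d0, map_mul, MulOpposite.unop_mul, Equiv.Perm.mul_apply, hF, MulOpposite.unop_op, p,
    Equiv.coe_fn_mk, h1, one_mul]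
  ring

end TF

open TF in
theorem TriPres.torsionFree {G : Type} [Group G] {S T : Type} (Q : TriPres G S T) (g : G)
    (hg : IsOfFinOrder g) : g = 1 := by
  set k := orderOf g with hk
  obtain ⟨a0, ha0⟩ := exists_norm g hg (fun _ => (1 : ℤ)) fun _ => rfl
  obtain ⟨a1, ha1⟩ := exists_diff g hg (d0 Q a0) (by
    intro h
    ext s
    simp only [d0, Finset.sum_apply, Finset.sum_sub_distrib, mul_assoc, ← ha0, sub_self,
      Pi.zero_apply])
  obtain ⟨a2, ha2⟩ := exists_norm g hg (d1 Q a1) (by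
    intro h
    ext t
    have e1 := congrFun (ha1 h) (Q.a t)
    have e2 := congrFun (ha1 (h * Q.x (Q.a t))) (Q.b t)
    have e3 := congrFun (ha1 h) (Q.c t)
    simp only [d0, Pi.sub_apply, mul_assoc, Q.rel] at e1 e2 e3
    simp only [d1, mul_assoc]
    linarith)
  obtain ⟨b1, hb1⟩ := Q.cs ℤ (fun y => a2 y.1 y.2)
  obtain ⟨b0, hb0⟩ := exact_of_d1 Q
    (ψ := fun h s => a1 h s - ∑ i ∈ Finset.range k, b1 (g ^ i * h, s)) (by
      intro h t
      have e1 := congrFun (ha2 h) t
      simp only [Finset.sum_apply, d1, ← hb1, Finset.sum_add_distrib, Finset.sum_sub_distrib,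
        mul_assoc, ← hk] at e1
      simp only [d1]
      linarith)
  have h1 : ∀ h, a0 h - (b0 (g * h) - b0 h) = a0 1 - (b0 (g * 1) - b0 1) :=
    const_of_d0 Q (b := fun h => a0 h - (b0 (g * h) - b0 h)) (by
      intro h s
      have e1 := congrFun (ha1 h) s
      have e2 := hb0 h s
      have e3 := hb0 (g * h) s
      have e4 := norm_shift g (fun y => b1 (y, s)) h
      simp only [d0, Pi.sub_apply, mul_assoc] at e1 e2 e3 ⊢
      simp only [Finset.sum_sub_distrib, ← hk, ← mul_assoc, ← pow_succ'] at e4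
      simp only [← mul_assoc g, ← mul_assoc (g ^ _), ← pow_succ] at e3
      simp only [mul_assoc] at e3
      linarith)
  have h2 := ha0 1
  have h3 := norm_shift g b0 1
  have h4 : ∑ i ∈ Finset.range k, (a0 (g ^ i * 1) - (b0 (g * (g ^ i * 1)) - b0 (g ^ i * 1))) =
      k * (a0 1 - (b0 (g * 1) - b0 1)) := by
    simp only [h1, Finset.sum_const, Finset.card_range, nsmul_eq_mul]
  rw [Finset.sum_sub_distrib, h3, ← h2, sub_zero] at h4
  have h5 : (k : ℤ) = 1 := Int.eq_one_of_mul_eq_one_right (Int.natCast_nonneg k) h4.symm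
  exact orderOf_eq_one_iff.1 (by exact_mod_cast h5)

theorem not_residuallyFinite {G : Type} [Group G] (a b : MonoidAlgebra (ZMod 2) G) (hab : a * b = 1)
    (hba : b * a ≠ 1) : ¬ Group.ResiduallyFinite G := by
  intro hG
  classical
  set d := b * a - 1 with hd
  have h1 : ∀ p : G × G, ∃ H : FiniteIndexNormalSubgroup G,
      p.1 ≠ p.2 → (p.1 : G ⧸ H.toSubgroup) ≠ p.2 := by
    intro p
    by_cases h : p.1 = p.2
    · exact ⟨.ofSubgroup ⊤, fun h' => (h' h).elim⟩
    · obtain ⟨H, hH⟩ := Group.exists_finiteIndexNormalSubgroup_of_residuallyFinite p.1 p.2 h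
      exact ⟨H, fun _ => hH⟩
  choose H hH using h1
  let I := (d.coeff.support ×ˢ d.coeff.support : Finset (G × G))
  let φ : G →* (∀ p : I, G ⧸ (H p.1).toSubgroup) :=
    MonoidHom.pi fun p => QuotientGroup.mk' (H p.1).toSubgroup
  have hφ : Set.InjOn φ d.coeff.support := by
    intro x hx y hy hxy
    by_contra hne
    exact hH (x, y) hne (congrFun hxy ⟨(x, y), Finset.mem_product.2 ⟨hx, hy⟩⟩)
  let Φ := MonoidAlgebra.mapDomainRingHom (ZMod 2) φ
  have : Finite (MonoidAlgebra (ZMod 2) (∀ p : I, G ⧸ (H p.1).toSubgroup)) :=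
    Finite.of_equiv _ (MonoidAlgebra.coeffEquiv.trans Finsupp.equivFunOnFinite).symm
  have h2 : Φ a * Φ b = 1 := by rw [← map_mul, hab, map_one]
  have h3 : Φ d = 0 := by rw [hd, map_sub, map_mul, map_one, mul_eq_one_symm h2, sub_self]
  apply hba
  rw [← sub_eq_zero, ← hd]
  ext x
  by_contra hx
  have hx' : x ∈ d.coeff.support := Finsupp.mem_support_iff.2 hx
  have h4 := Finsupp.mapDomain_apply' (d.coeff.support : Set G) d.coeff subset_rfl hφ hx'
  have h5 : Finsupp.mapDomain φ d.coeff = 0 := congrArg MonoidAlgebra.coeff h3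
  rw [h5] at h4
  exact hx h4.symm

end Crest.Agent.R177
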